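import Vale.Agent.P011UHB.Spec
import Mathlib.FieldTheory.Galois.Infinite
import Mathlib.FieldTheory.Galois.Profinite
import Mathlib.GroupTheory.IndexNormal
import Mathlib.RingTheory.RootsOfUnity.AlgebraicallyClosed

/-!
Towers of Galois extensions of prime degree from subgroups of the Galois group.
-/

namespace Vale.Agent.P011UHT

open IntermediateField Vale.Agent.P011U Vale.Agent.P011UHB

variable {k K : Type} [Field k] [Field K] [Algebra k K] {l : ℕ} {H H' H'' : Subgroup Gal(K/k)}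

theorem fx_iff {L : IntermediateField k K} {σ : Gal(K/k)} :
    Fx (L : Set K) σ ↔ σ ∈ L.fixingSubgroup := (mem_fixingSubgroup_iff L σ).symm

theorem cl_mid (c : IsClosed (H : Set Gal(K/k))) (c' : IsClosed (H' : Set Gal(K/k)))
    (i : H'.relIndex H ≠ 0) (a : H' ≤ H'') (b : H'' ≤ H) : IsClosed (H'' : Set Gal(K/k)) := by
  have : (H'.subgroupOf H).FiniteIndex := ⟨i⟩
  have o := Subgroup.isOpen_mono (H₂ := H''.subgroupOf H) (fun x m => a m)
    (Subgroup.isOpen_of_isClosed_of_finiteIndex (H'.subgroupOf H)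
      (c'.preimage continuous_subtype_val))
  have := c.isClosedMap_subtype_val _ (Subgroup.isClosed_of_isOpen (G := H) _ o)
  convert this using 1
  ext x
  exact ⟨fun m => ⟨⟨x, b m⟩, m, rfl⟩, fun ⟨_, m, e⟩ => e ▸ m⟩

variable [IsGalois k K]

theorem fix_ff (c : IsClosed (H : Set Gal(K/k))) : (fixedField H).fixingSubgroup = H :=
  InfiniteGalois.fixingSubgroup_fixedField ⟨H, c⟩

theorem cyc_of (c : IsClosed (H : Set Gal(K/k))) (c' : IsClosed (H' : Set Gal(K/k)))
    (a : H' ≤ H) (n : (H'.subgroupOf H).Normal) (i : H'.relIndex H = l) :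
    Cyc l (fixedField H) (fixedField H') := by
  let r : Gal(K/fixedField H) →* Gal(K/k) := AlgEquiv.restrictScalarsHom k
  have r1 : r.range = H := by
    refine Eq.trans ?_ (fix_ff c)
    ext σ
    exact ⟨fun ⟨τ, e⟩ => e ▸ ((fixedField H).fixingSubgroupEquiv.symm τ).2,
      fun m => ⟨(fixedField H).fixingSubgroupEquiv ⟨σ, m⟩, rfl⟩⟩
  have e : (extendScalars (fixedField_le a)).fixingSubgroup = H'.comap r := by
    ext τ
    rw [Subgroup.mem_comap, ← SetLike.ext_iff.1 (fix_ff c'),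
      IntermediateField.mem_fixingSubgroup_iff, IntermediateField.mem_fixingSubgroup_iff]
    rfl
  refine ⟨extendScalars (fixedField_le a), extendScalars_restrictScalars _, ?_, ?_⟩
  · rw [finrank_eq_fixingSubgroup_index, e, Subgroup.index_comap, r1, i]
  · rw [← InfiniteGalois.normal_iff_isGalois, e]
    exact ⟨fun τ m g => by
      rw [Subgroup.mem_comap, map_mul, map_mul, map_inv]
      exact n.conj_mem ⟨r τ, a m⟩ m ⟨r g, r1.le ⟨g, rfl⟩⟩⟩

theorem up_pow (hl : l.Prime) (c' : IsClosed (H' : Set Gal(K/k))) (e : ℕ) :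
    ∀ H : Subgroup Gal(K/k), IsClosed (H : Set Gal(K/k)) → H' ≤ H →
    (H'.subgroupOf H).Normal → H'.relIndex H = l ^ e → Up {l} (fixedField H) (fixedField H') := by
  have := Fact.mk hl
  induction e with
  | zero =>
    intro H _ a _ i
    rw [le_antisymm (Subgroup.relIndex_eq_one.1 i) a]
    exact .refl
  | succ e ih =>
    intro H c a n i
    have i0 : H'.relIndex H ≠ 0 := i ▸ pow_ne_zero _ hl.ne_zero
    have : (H'.subgroupOf H).FiniteIndex := ⟨i0⟩
    have cd : Nat.card (H ⧸ H'.subgroupOf H) = l ^ (e + 1) := i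
    obtain ⟨P, hP⟩ := Sylow.exists_subgroup_card_pow_prime (G := H ⧸ H'.subgroupOf H) l (n := e)
      (cd ▸ pow_dvd_pow l e.le_succ)
    have iP : P.index = l := by
      have := P.card_mul_index
      rw [hP, cd, pow_succ] at this
      exact Nat.eq_of_mul_eq_mul_left (pow_pos hl.pos e) this
    have nP : P.Normal := Subgroup.normal_of_index_eq_minFac_card (by
      rw [iP, cd, hl.pow_minFac e.succ_ne_zero])
    let J := (P.comap (QuotientGroup.mk' _)).map H.subtype
    have s : J.subgroupOf H = P.comap (QuotientGroup.mk' _) :=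
      Subgroup.comap_map_eq_self_of_injective H.subtype_injective _
    have b : J ≤ H := Subgroup.map_subtype_le _
    have a' : H' ≤ J := fun x m => ⟨⟨x, a m⟩, by
      rw [SetLike.mem_coe, Subgroup.mem_comap, QuotientGroup.mk'_apply,
        (QuotientGroup.eq_one_iff (N := H'.subgroupOf H) ⟨x, a m⟩).2 m]
      exact P.one_mem, rfl⟩
    have iJ : J.relIndex H = l := by
      rw [Subgroup.relIndex, s, Subgroup.index_comap_of_surjective _
        (QuotientGroup.mk'_surjective _), iP]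
    have cJ := cl_mid c c' i0 a' b
    refine .head ⟨l, rfl, hl, cyc_of c cJ b (s ▸ nP.comap _) iJ⟩ (ih J cJ a'
      ⟨fun x m g => n.conj_mem ⟨x, b x.2⟩ m ⟨g, b g.2⟩⟩ ?_)
    have := Subgroup.relIndex_mul_relIndex H' J H a' b
    rw [iJ, i, pow_succ] at this
    exact Nat.eq_of_mul_eq_mul_right hl.pos this

/-- Normal subgroups with a finite `l`-group as the quotient give towers. -/
theorem up_of (hl : l.Prime) (c : IsClosed (H : Set Gal(K/k))) (c' : IsClosed (H' : Set Gal(K/k)))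
    (a : H' ≤ H) (n : ∀ τ ∈ H', ∀ σ ∈ H, σ * τ * σ⁻¹ ∈ H') (i : H'.relIndex H ≠ 0)
    (p : ∀ σ ∈ H, ∃ e, σ ^ l ^ e ∈ H') : Up {l} (fixedField H) (fixedField H') := by
  have := Fact.mk hl
  have n' : (H'.subgroupOf H).Normal := ⟨fun x m g => n x m g g.2⟩
  have : (H'.subgroupOf H).FiniteIndex := ⟨i⟩
  obtain ⟨e, he⟩ := IsPGroup.iff_card.1 (show IsPGroup l (H ⧸ H'.subgroupOf H) from fun g => by
    obtain ⟨x, rfl⟩ := QuotientGroup.mk_surjective g
    exact (p x x.2).imp fun e m => by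
      rw [← QuotientGroup.mk_pow]; exact (QuotientGroup.eq_one_iff _).2 m)
  exact up_pow hl c' e H c a n' he

theorem open_idx (o : IsOpen (H' : Set Gal(K/k))) : (H ⊓ H').relIndex H ≠ 0 := by
  have := H'.quotient_finite_of_isOpen o
  have := Subgroup.finiteIndex_of_finite_quotient (H := H')
  rw [Subgroup.inf_relIndex_left]
  exact Subgroup.FiniteIndex.index_ne_zero

/-- **GAL.** -/
theorem gal : GAL := by
  intro k K _ _ _ _ l L H hl _ ⟨F, _, hF⟩ n i
  have o : IsOpen (H : Set Gal(K/k)) := Subgroup.isOpen_mono (H₁ := F.fixingSubgroup)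
    (fun τ m => hF τ ((mem_fixingSubgroup_iff _ _).1 m)) F.fixingSubgroup_isOpen
  have c := InfiniteGalois.fixingSubgroup_isClosed L
  have c' : IsClosed ((L.fixingSubgroup ⊓ H : Subgroup _) : Set Gal(K/k)) :=
    c.inter (Subgroup.isClosed_of_isOpen _ o)
  have n' : (H.subgroupOf L.fixingSubgroup).Normal := ⟨fun x m g => n g (fx_iff.2 g.2) x m⟩
  refine ⟨fixedField (L.fixingSubgroup ⊓ H), ?_, fun σ m => (fix_ff c' ▸ fx_iff.1 m).2⟩
  have := up_of hl c c' inf_le_left (fun τ m σ s => ⟨mul_mem (mul_mem s m.1) (Subgroup.inv_mem _ s),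
    n σ (fx_iff.2 s) τ m.2⟩) (open_idx o) fun σ s => ⟨1, pow_mem s _, by
      obtain ⟨j, hj⟩ := i
      rw [pow_one, hj, pow_mul]
      exact pow_mem (Subgroup.pow_index_mem (H := H.subgroupOf _) ⟨σ, s⟩) _⟩
  rwa [InfiniteGalois.fixedField_fixingSubgroup] at this

/-! ### Roots of unity -/

variable (k K) in
/-- The automorphisms which fix the roots of unity of order dividing `N`. -/
def Zn (N : ℕ) : Subgroup Gal(K/k) := (adjoin k {ζ : K | ζ ^ N = 1}).fixingSubgroup

omit [IsGalois k K] in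
theorem mem_Zn {N : ℕ} {σ : Gal(K/k)} : σ ∈ Zn k K N ↔ ∀ ζ : K, ζ ^ N = 1 → σ ζ = ζ := by
  rw [Zn, ← Subgroup.zpowers_le, ← le_iff_le, adjoin_le_iff]
  exact ⟨fun h ζ m => h m ⟨σ, Subgroup.mem_zpowers σ⟩, fun h ζ m g =>
    (Subgroup.zpowers_le (g := σ) (H := MulAction.stabilizer _ ζ)).2 (h ζ m) g.2⟩

theorem Zn_open {N : ℕ} (h : N ≠ 0) : IsOpen (Zn k K N : Set Gal(K/k)) := by
  have : Finite {ζ : K | ζ ^ N = 1} := (Polynomial.nthRoots N (1 : K)).finite_toSet.subset
    fun _ m => (Polynomial.mem_nthRoots (Nat.pos_of_ne_zero h)).2 m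
  have := finiteDimensional_adjoin (K := k) (S := {ζ : K | ζ ^ N = 1})
    fun x _ => Algebra.IsIntegral.isIntegral x
  exact fixingSubgroup_isOpen _

omit [IsGalois k K] in
theorem ex_pow {N : ℕ} (h : N ≠ 0) (σ : Gal(K/k)) {ζ : K} (m : ζ ^ N = 1) : ∃ a, σ ζ = ζ ^ a :=
  have := NeZero.mk h
  map_rootsOfUnity_eq_pow_self σ (rootsOfUnity.mkOfPowEq ζ m)

omit [IsGalois k K] in
theorem Zn_comm {N : ℕ} (h : N ≠ 0) (σ τ : Gal(K/k)) {ζ : K} (m : ζ ^ N = 1) :
    σ (τ ζ) = τ (σ ζ) := by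
  obtain ⟨a, ha⟩ := ex_pow h σ m
  obtain ⟨b, hb⟩ := ex_pow h τ m
  rw [ha, hb, map_pow, map_pow, ha, hb, ← pow_mul, ← pow_mul, mul_comm]

instance (N : ℕ) : (Zn k K N).Normal := ⟨fun τ m σ => mem_Zn.2 fun ζ h => by
  rw [AlgEquiv.mul_apply, AlgEquiv.mul_apply, mem_Zn.1 m _ (by rw [← map_pow, h, map_one]),
    ← AlgEquiv.mul_apply, mul_inv_cancel, AlgEquiv.one_apply]⟩

omit [IsGalois k K] in
theorem fermat {p : ℕ} (hp : p.Prime) (σ : Gal(K/k)) : σ ^ (p - 1) ∈ Zn k K p :=
  mem_Zn.2 fun ζ m => by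
    obtain ⟨a, ha⟩ := ex_pow hp.ne_zero σ m
    have e : ∀ j, (σ ^ j) ζ = ζ ^ a ^ j := fun j => by
      induction j with
      | zero => simp
      | succ j ih => rw [pow_succ', AlgEquiv.mul_apply, ih, map_pow, ha, ← pow_mul, ← pow_succ']
    by_cases d : p ∣ a
    · obtain ⟨b, rfl⟩ := d
      rw [pow_mul, m, one_pow, map_eq_one_iff σ σ.injective] at ha
      rw [ha, map_one]
    · have := Nat.ModEq.pow_totient ((hp.coprime_iff_not_dvd.2 d).symm)
      rw [Nat.totient_prime hp] at this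
      rw [e, pow_eq_pow_mod _ m, this, ← pow_eq_pow_mod _ m, pow_one]

omit [IsGalois k K] in
theorem mu_of [IsSepClosed K] {p : ℕ} (a : H ≤ Zn k K p) : Mu p (fixedField H) := by
  refine or_iff_not_imp_left.2 fun h => ?_
  have := NeZero.mk h
  obtain ⟨ζ, hζ⟩ := HasEnoughRootsOfUnity.exists_primitiveRoot K p
  exact ⟨ζ, fun g => mem_Zn.1 (a g.2) ζ hζ.pow_eq_one, hζ⟩

/-- **ROT.** -/
theorem rot : ROT := by
  intro k K _ _ _ _ L
  have := IsSepClosure.sep_closed k (K := K)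
  let Z := Zn k K 2 ⊓ (Zn k K 3 ⊓ Zn k K 5)
  have o : IsOpen (Z : Set Gal(K/k)) :=
    (Zn_open (by norm_num)).inter ((Zn_open (by norm_num)).inter (Zn_open (by norm_num)))
  have c := InfiniteGalois.fixingSubgroup_isClosed L
  refine ⟨fixedField (L.fixingSubgroup ⊓ Z), ?_, mu_of (inf_le_right.trans inf_le_left),
    mu_of (inf_le_right.trans (inf_le_right.trans inf_le_left)),
    mu_of (inf_le_right.trans (inf_le_right.trans inf_le_right))⟩
  have := up_of Nat.prime_two c (c.inter (Subgroup.isClosed_of_isOpen _ o) :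
    IsClosed ((L.fixingSubgroup ⊓ Z : Subgroup _) : Set Gal(K/k))) inf_le_left
    (fun τ m σ s => ⟨mul_mem (mul_mem s m.1) (Subgroup.inv_mem _ s), Subgroup.Normal.conj_mem inferInstance
      τ m.2 σ⟩) (open_idx o) fun σ s => ⟨2, pow_mem s _, pow_mem (x := σ ^ 1)
        (fermat Nat.prime_two σ) 4, (pow_mul σ 2 2).symm ▸ pow_mem (fermat Nat.prime_three σ) 2,
        fermat Nat.prime_five σ⟩
  rwa [InfiniteGalois.fixedField_fixingSubgroup] at this

end Vale.Agent.P011UHT
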