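import Vale.Agent.P011UHT.Gal

/-!
Classes of prime power order die in a finite tower.
-/

namespace Vale.Agent.P011UHT

open IntermediateField Vale.Agent.P011U Vale.Agent.P011UHB Filter Topology

variable {k K : Type} [Field k] [Field K] [Algebra k K] {l : ℕ}

theorem up_le {P : Set ℕ} {A B : IntermediateField k K} (h : Up P A B) : A ≤ B := by
  induction h with
  | refl => exact le_rfl
  | tail _ s ih =>
    obtain ⟨_, -, -, M, rfl, -⟩ := s
    exact ih.trans fun x m => M.algebraMap_mem ⟨x, m⟩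

theorem ml_fix {r : ℕ} {χ : (Fin r → ℤ) → Kˣ} (h : Ml χ) (τ : Gal(K/k))
    (e : ∀ i, τ (χ (Pi.single i 1)) = χ (Pi.single i 1)) (γ : Fin r → ℤ) : τ (χ γ) = χ γ := by
  let f : (Fin r → ℤ) →+ Additive Kˣ := AddMonoidHom.mk' (fun γ => Additive.ofMul (χ γ)) h
  let g := (Units.map (τ : K →* K)).toAdditive.comp f
  have : g = f := AddMonoidHom.pi_ext fun i x => DFunLike.congr_fun
    (AddMonoidHom.ext_int (f := g.comp (AddMonoidHom.single (fun _ => ℤ) i))
      (g := f.comp (AddMonoidHom.single (fun _ => ℤ) i)) (Units.ext (e i))) x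
  exact congrArg Units.val (DFunLike.congr_fun this γ)

/-- A cocycle which splits over the union of a tower splits at a finite level. -/
theorem cb_fin [IsGalois k K] {r : ℕ} {ω : Gal(K/k) →* ((Fin r → ℤ) ≃ₗ[ℤ] (Fin r → ℤ))}
    {ξ : Gal(K/k) → (Fin r → ℤ) → Kˣ} (c : Co ω ξ) {F : ℕ → IntermediateField k K}
    (mo : Monotone F) (h : Cb ω ξ (⨆ i, F i : IntermediateField k K)) : ∃ i, Cb ω ξ (F i) := by
  obtain ⟨χ, m, h⟩ := h
  obtain ⟨E, _, hE⟩ := c.cont
  let S : Set K := Set.range fun i => (χ (Pi.single i 1) : K)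
  have := finiteDimensional_adjoin (K := k) (S := S) fun x _ => Algebra.IsIntegral.isIntegral x
  obtain ⟨i, hi⟩ := exists_subset_nhds_of_compactSpace
    (V := fun i => ((F i).fixingSubgroup : Set Gal(K/k)))
    (directed_of_isDirected_le fun i j e => fixingSubgroup_le (mo e))
    (fun i => InfiniteGalois.fixingSubgroup_isClosed _) (U := {σ | ξ σ * χ = ga ω σ χ})
    fun σ s => by
      have e := h σ (fx_iff.2 (Subgroup.zpowers_le.1 ((le_iff_le _ _).1 (iSup_le fun i =>
        (le_iff_le _ _).2 (Subgroup.zpowers_le.2 (Set.mem_iInter.1 s i))))))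
      refine mem_of_superset (((E ⊔ adjoin k S).fixingSubgroup_isOpen.leftCoset σ).mem_nhds
        ⟨1, one_mem _, mul_one σ⟩) ?_
      rintro _ ⟨τ, t, rfl⟩
      rw [fixingSubgroup_sup] at t
      obtain ⟨t1, t2⟩ := hE τ (fx_iff.2 t.1)
      show ξ (σ * τ) * χ = ga ω (σ * τ) χ
      rw [c.mul, t2, show ga ω σ 1 = 1 from funext fun _ => map_one _, mul_one, e]
      funext γ
      rw [ga, ga, map_mul, t1, mul_one]
      exact Units.ext (congrArg σ (ml_fix m τ (fun i => fx_iff.2 t.2 _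
        (subset_adjoin k S ⟨i, rfl⟩)) _).symm)
  exact ⟨i, χ, m, fun σ s => hi (fx_iff.1 s)⟩

/-- **KIL.** -/
theorem kil (tow : TOW) (cd : CD1) : KIL := by
  intro k K _ _ _ _ r ω ξ c g n l a L hl f μ h
  obtain ⟨F, F0, up, d⟩ := tow k K g n l L hl f μ
  obtain ⟨i, hi⟩ := cb_fin c (monotone_nat_of_le_succ fun i => up_le (up i))
    (cd k K r ω ξ c l a _ hl d (h.imp fun χ j => ⟨j.1, fun σ s => j.2 σ fun x m =>
      s x (le_iSup F 0 (F0 ▸ m))⟩))
  refine ⟨F i, ?_, hi⟩
  clear hi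
  induction i with
  | zero => exact F0 ▸ .refl
  | succ i ih => exact ih.trans (up i)

end Vale.Agent.P011UHT
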