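import Vale.Agent.P011UHT.Loc
import Vale.Agent.P011UHT.Kil
import Vale.Agent.P011U.Top

/-!
The cyclotomic towers have dimension one.
-/

namespace Vale.Agent.P011UHT

open Module IntermediateField Vale.Agent.P011L Vale.Agent.P011U Vale.Agent.P011UHB
  Vale.Agent.P011 Vale.Agent.P011.W

/-- A division algebra is defined over a finite extension. -/
theorem desc {k M B : Type} [Field k] [Field M] [Algebra k M] [Algebra.IsAlgebraic k M]
    [DivisionRing B] [Algebra M B] [Algebra.IsCentral M B] {l : ℕ} (hB : finrank M B = l ^ 2)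
    (hl : 2 ≤ l) : ∃ (F : IntermediateField k M) (_ : FiniteDimensional k F) (D : Type)
      (_ : DivisionRing D) (_ : Algebra F D) (_ : FiniteDimensional F D) (_ : Algebra.IsCentral F D),
      finrank F D = l ^ 2 ∧ ¬Spl D l (algebraMap F M) := by
  have : FiniteDimensional M B := Module.finite_of_finrank_pos (by rw [hB]; positivity)
  let b := finBasisOfFinrankEq M B hB
  let S : Set M := Set.range (b.repr 1) ∪
    Set.range fun p : _ × _ × _ => b.repr (b p.1 * b p.2.1) p.2.2
  let F := adjoin k S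
  have := finiteDimensional_adjoin (K := k) (S := S) fun x _ => Algebra.IsIntegral.isIntegral x
  let P := Submodule.span F (Set.range b)
  have mem : ∀ z, z ∈ P ↔ ∀ i, b.repr z i ∈ F := fun z => (b.mem_span_iff_repr_mem F z).trans
    (forall_congr' fun i => ⟨fun ⟨x, e⟩ => e ▸ x.2, fun m => ⟨⟨_, m⟩, rfl⟩⟩)
  let D : Subalgebra F B := P.toSubalgebra
    ((mem _).2 fun i => subset_adjoin k S (.inl ⟨i, rfl⟩)) fun x y hx hy =>
      (Submodule.mul_le.1 (show P * P ≤ P from by
        rw [Submodule.span_mul_span, Submodule.span_le]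
        rintro _ ⟨_, ⟨i, rfl⟩, _, ⟨j, rfl⟩, rfl⟩
        exact (mem _).2 fun a => subset_adjoin k S (.inr ⟨(i, j, a), rfl⟩))) x hx y hy
  have fd : FiniteDimensional F D := FiniteDimensional.span_of_finite F (Set.finite_range b)
  let e : Fin (l ^ 2) → D := fun i => ⟨b i, Submodule.subset_span ⟨i, rfl⟩⟩
  have ce : Algebra.IsCentral F D := ⟨fun z m => by
    have z1 : z.1 ∈ Subalgebra.center M B := Subalgebra.mem_center_iff.2 fun y =>
      DFunLike.congr_fun (b.ext (f₁ := LinearMap.mulRight M z.1) (f₂ := LinearMap.mulLeft M z.1)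
        fun i => congrArg Subtype.val (Subalgebra.mem_center_iff.1 m (e i))) y
    obtain ⟨c, hc⟩ := Algebra.IsCentral.out z1
    obtain ⟨i, hi⟩ : ∃ i, b.repr 1 i ≠ 0 := by
      by_contra! h
      exact one_ne_zero (b.repr.map_eq_zero_iff.1 (Finsupp.ext h))
    have c1 := (mem _).1 z.2 i
    rw [← hc, show (Algebra.ofId M B).toRingHom c = c • 1 from Algebra.algebraMap_eq_smul_one c,
      map_smul, Finsupp.smul_apply, smul_eq_mul] at c1
    have c2 := div_mem c1 ((mem _).1 D.one_mem i)
    rw [mul_div_cancel_right₀ _ hi] at c2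
    exact ⟨⟨c, c2⟩, Subtype.ext hc⟩⟩
  refine ⟨F, ‹_›, D, divisionRingOfFiniteDimensional F D, inferInstance, fd, ce,
    (finrank_span_eq_card (b.linearIndependent.restrict_scalars' F)).trans (Fintype.card_fin _),
    fun h => ?_⟩
  let _ := divisionRingOfFiniteDimensional F D
  obtain ⟨g⟩ := h.exists_algHom
  let G := b.constr M fun i => g (e i)
  have hG : ∀ z : D, G z = g z := fun ⟨z, m⟩ => by
    induction m using Submodule.span_induction with
    | mem _ m => obtain ⟨i, rfl⟩ := m; exact b.constr_basis M _ i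
    | zero => exact (map_zero G).trans (map_zero g).symm
    | add x y hx hy i j => exact (map_add G x y).trans ((congrArg₂ _ i j).trans
        (map_add g ⟨x, hx⟩ ⟨y, hy⟩).symm)
    | smul c x hx i => exact (map_smul G c.1 x).trans ((congrArg (c • ·) i).trans
        (map_smul g c ⟨x, hx⟩).symm)
  have := H505.Wang.dvd_of_spl hB M (spl_of_algHom (AlgHom.ofLinearMap G
    ((hG 1).trans (map_one g)) fun x y => DFunLike.congr_fun (DFunLike.congr_fun (LinearMap.ext_basis b b
      (B := (LinearMap.mul M B).compr₂ G) (B' := (LinearMap.mul M _).compl₁₂ G G) fun i j =>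
        (hG (e i * e j)).trans ((map_mul g _ _).trans
          (congrArg₂ _ (hG (e i)).symm (hG (e j)).symm))) x) y))
  rw [finrank_self, Nat.dvd_one] at this
  omega

theorem dim1 {k M N : Type} [Field k] [Field M] [Algebra k M] [Algebra.IsAlgebraic k M] [Field N]
    [Algebra M N] [IsGalois M N] {l : ℕ} (g : Glob k) (n : NoR k) (hl : l.Prime)
    (hN : finrank M N = l) (p : ∀ i ≠ 0, ∃ E : IntermediateField k M, FiniteDimensional k E ∧
      Pr l i E) (x : M) : ∃ y : N, Algebra.norm M y = x := by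
  by_contra h
  have : FiniteDimensional M N := Module.finite_of_finrank_pos (hN.symm ▸ hl.pos)
  obtain ⟨B, _, _, _, hB, -⟩ := H228.exists_division hl hN x (not_exists.1 h)
  obtain ⟨F, _, D, _, _, _, _, hD, s⟩ := desc (k := k) hB hl.two_le
  obtain ⟨i, i0, hi⟩ := glob (Glob.fin g) ⟨fun ψ => n.false (ψ.comp (algebraMap k F))⟩ hD
  obtain ⟨J, _, hJ⟩ := p i i0
  let E := extendScalars (le_sup_left : F ≤ F ⊔ J)
  have : FiniteDimensional k E := inferInstanceAs (FiniteDimensional k ↥(F ⊔ J))
  have := FiniteDimensional.right k F E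
  exact s ((hi E (hJ.comp (inclusion (le_sup_right : J ≤ F ⊔ J)).toRingHom dvd_rfl)).comp
    (algebraMap E M))

/-- **TOW.** -/
theorem tow : TOW := by
  intro k K _ _ _ _ g n l L hl f _
  have := IsSepClosure.sep_closed k (K := K)
  refine ⟨fun i => fixedField (Hn l L i), (congrArg fixedField Hn_zero).trans
    (InfiniteGalois.fixedField_fixingSubgroup L), fun i => Hn_up hl, ?_⟩
  obtain ⟨F, hF, e⟩ : ∃ F, F = ⨆ i, fixedField (Hn l L i) ∧ ∀ i, fixedField (Hn l L i) ≤ F :=
    ⟨_, rfl, le_iSup _⟩
  rw [← hF]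
  intro M _ N hN _
  have : Algebra.IsAlgebraic k M := (inferInstance : Algebra.IsAlgebraic k (M.restrictScalars k))
  refine dim1 g n hl hN fun i i0 => ?_
  let j : fixedField (Hn l L i) →ₐ[k] M := (IsScalarTower.toAlgHom k F M).comp (inclusion (e i))
  have := Hn_fin (l := l) (L := L) (i := i)
  exact ⟨j.fieldRange, .of_surjective j.rangeRestrict.toLinearMap j.rangeRestrict_surjective,
    Hn_pr.comp j.rangeRestrict.toRingHom (Nat.dvd_factorial (Nat.pos_of_ne_zero i0) le_rfl)⟩

end Vale.Agent.P011UHT
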