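import Vale.Agent.P011UHT.Pr
import Vale.Agent.P011.H279.SqrtB

/-!
Central division algebras over global fields without real places are split by the primary parts of
cyclotomic extensions.
-/

namespace Vale.Agent.P011UHT

open Module NumberField Vale.Agent.P011L Vale.Agent.P011U Vale.Agent.P011 Vale.Agent.P011.W
  Vale.Agent.P011.Even.LocDiv Vale.Agent.P011.H738 Vale.Agent.P011.H271

variable {l : ℕ}

theorem loc0 {k E : Type} [NontriviallyNormedField k] [IsUltrametricDist k] [ProperSpace k]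
    [DivisionRing E] [Algebra k E] [FiniteDimensional k E] [Algebra.IsCentral k E] {q : ℕ}
    (hq : finrank k E = q ^ 2) (d : q ∣ l) :
    ∃ N ≠ 0, ∀ (M : Type) [Field M] (φ : k →+* M), Pr l N M → Spl E q φ := by
  let _ : NormedDivisionRing E := ndr k
  let _ : NormedAlgebra k E :=
    { (inferInstance : Algebra k E) with
      norm_smul_le := fun c x => by
        change nm k (c • x) ≤ ‖c‖ * nm k x
        rw [Algebra.smul_def, nm_mul, nm_algebraMap] }
  have hU : IsUltrametricDist E := IsUltrametricDist.isUltrametricDist_of_forall_norm_add_le_max_norm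
    (fun x y => nm_add_le_max k x y)
  have : ProperSpace E := FiniteDimensional.proper k E
  obtain ⟨c, c0, c1⟩ := NormedField.exists_norm_lt_one k
  have hc : ‖algebraMap k E c‖ = ‖c‖ := nm_algebraMap k c
  obtain ⟨R⟩ := exists_frame (algebraMap k E c) (norm_pos_iff.1 (hc ▸ c0)) (hc ▸ c1)
  obtain ⟨W, _, _, _, ⟨C⟩⟩ := exists_cyc (k := k) R
  have hW : finrank k W = q := (P011LQ.cyc_deg C).2.trans (H279.Sq.m_eq C hq)
  have : IsGalois k W := IsGalois.of_fixedField_eq_bot k W (eq_bot_iff.2 fun w m =>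
    C.exists_base (m ⟨AlgEquiv.ofBijective C.σ C.σ.bijective, trivial⟩))
  refine ⟨R.N, R.hN.ne', fun M _ φ h => ?_⟩
  obtain ⟨ψ, rfl⟩ := h.emb (hW ▸ d) C.gen (C.inj (by rw [map_pow, C.hω, R.ζN, map_one])) φ
  exact (spl_of_maxfield hq hW C.ι).comp ψ

variable {F D : Type} [Field F] [DivisionRing D] [Algebra F D] [FiniteDimensional F D]
  [Algebra.IsCentral F D]

theorem loc (hD : finrank F D = l ^ 2) {R : Type} [NontriviallyNormedField R] [IsUltrametricDist R]
    [ProperSpace R] (ι : F →+* R) :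
    ∃ N ≠ 0, ∀ (M : Type) [Field M] (φ : R →+* M), Pr l N M → Spl D l (φ.comp ι) := by
  let _ := ι.toAlgebra
  obtain ⟨r, q, Δ, _, _, _, _, e, -, hΔ, h⟩ := H505.Wang.exists_part hD R
  exact (loc0 hΔ (Dvd.intro_left r e)).imp fun N j => ⟨j.1, fun M _ φ p => (h M φ).2 (j.2 M φ p)⟩

theorem glob (g : Glob F) (n : NoR F) (hD : finrank F D = l ^ 2) :
    ∃ N ≠ 0, ∀ (E : Type) [Field E] [Algebra F E] [FiniteDimensional F E], Pr l N E →
      Spl D l (algebraMap F E) := by
  rcases g with g | ⟨F0, _, _, _, _⟩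
  · obtain ⟨S, hS, h⟩ := spl_almost (deg_pos hD) hD
    choose N N0 hN using fun w : IsDedekindDomain.HeightOneSpectrum (𝓞 F) =>
      @loc l F D _ _ _ _ _ hD _ (Even.nnf w) (Even.isUltra w) inferInstance
        (algebraMap F (w.adicCompletion F))
    refine ⟨∏ w ∈ hS.toFinset, N w, Finset.prod_ne_zero_iff.2 fun w _ => N0 w, fun E _ _ _ p => ?_⟩
    have := NumberField.of_module_finite F E
    refine Tpl.H359.abhn_gen hD E (fun w' => ?_) fun _ ψ => (n.false (ψ.comp (algebraMap F E))).elim
    obtain ⟨w, hw⟩ := Arith.exists_below (F := F) w'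
    by_cases e : w ∈ S
    · obtain ⟨f, hf⟩ := completion_map hw
      have := hN w _ f (p.comp (algebraMap E _) (Finset.dvd_prod_of_mem _ (hS.mem_toFinset.2 e)))
      rwa [RingHom.ext (f := f.comp _) (g := pl (F := F) E w') hf] at this
    · exact h w e E w' hw
  · have := GFF.mk' F0 F
    let _ : StarRing F := starRingOfComm
    obtain ⟨T, h⟩ := H961.exists_split_ae (k := F) (K := F) (A := D)
      (fun x => iff_of_true rfl ⟨x, rfl⟩) (deg_pos hD).ne' hD
    choose N N0 hN using fun v : Place F =>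
      @loc l F D _ _ _ _ _ hD _ (nnfPlace v) inferInstance inferInstance (algebraMap F v.comp)
    refine ⟨∏ v ∈ T, N v, Finset.prod_ne_zero_iff.2 fun v _ => N0 v, fun E _ _ _ p => ?_⟩
    have : GFF E := Hey.H63.gff_of_finite (k := F)
    refine H279.Sq.spl_of_local hD E fun W => ?_
    obtain ⟨v, c, c0, hv⟩ := Hey.H63.exists_below (k := F) W
    obtain ⟨f, hf⟩ := Hey.H63.exists_compHom v W c0 hv
    rw [← RingHom.ext (f := f.comp _) (g := (algebraMap E W.comp).comp (algebraMap F E)) hf]
    by_cases e : v ∈ T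
    · exact hN v _ f (p.comp (algebraMap E _) (Finset.dvd_prod_of_mem _ e))
    · exact Spl.comp (@h v e v.comp (nnfPlace v) _ _ (algebraMap F v.comp) (norm_alg v)) f

end Vale.Agent.P011UHT
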