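import Vale.Agent.P011UHT.Gal
import Vale.Agent.P011LQ.Two

/-!
The primary parts of the cyclotomic extensions.
-/

namespace Vale.Agent.P011UHT

open IntermediateField Polynomial Vale.Agent.P011U Vale.Agent.P011UHB

/-- The Galois group of `M` acts on the roots of unity of order dividing `N` through elements of
order prime to `l`. -/
def Pr (l N : ℕ) (M : Type) [Field M] : Prop :=
  ∀ (Ω : Type) [Field Ω] [IsSepClosed Ω] (χ : M →+* Ω) (τ : Ω ≃+* Ω), (∀ x, τ (χ x) = χ x) →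
    ∃ n, n.Coprime l ∧ ∀ ζ : Ω, ζ ^ N = 1 → τ^[n] ζ = ζ

variable {l N N' : ℕ} {M M' : Type} [Field M] [Field M']

theorem Pr.comp (h : Pr l N M) (f : M →+* M') (d : N' ∣ N) : Pr l N' M' :=
  fun Ω _ _ χ τ e => (h Ω (χ.comp f) τ fun x => e (f x)).imp fun _ j =>
    ⟨j.1, fun ζ m => j.2 ζ (by obtain ⟨c, rfl⟩ := d; rw [pow_mul, m, one_pow])⟩

theorem root_mem [IsSepClosed M] (j : M →+* M') (h : N ≠ 0) {ζ : M'} (m : ζ ^ N = 1) :
    ∃ ξ, j ξ = ζ := by
  have := NeZero.mk (orderOf_pos_iff.2 (isOfFinOrder_iff_pow_eq_one.2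
    ⟨N, Nat.pos_of_ne_zero h, m⟩)).ne'
  have h1 := (IsPrimitiveRoot.orderOf ζ).neZero'
  have : NeZero ((orderOf ζ : ℕ) : M) := ⟨fun e => h1.out (by rw [← map_natCast j, e, map_zero])⟩
  obtain ⟨ξ, hξ⟩ := HasEnoughRootsOfUnity.exists_primitiveRoot M (orderOf ζ)
  obtain ⟨i, -, e⟩ := (hξ.map_of_injective j.injective).eq_pow_of_pow_eq_one (pow_orderOf_eq_one ζ)
  exact ⟨ξ ^ i, (map_pow j ξ i).trans e⟩

theorem ex_res {F : Type} [Field F] [Algebra F M] [IsGalois F M] [IsSepClosed M'] (χ : F →+* M') :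
    ∃ j : M →+* M', (∀ c, j (algebraMap F M c) = χ c) ∧ ∀ τ : M' ≃+* M', (∀ x, τ (χ x) = χ x) →
      ∃ t : Gal(M/F), ∀ n w, τ^[n] (j w) = j ((t ^ n) w) := by
  let _ := χ.toAlgebra
  let j : M →ₐ[F] M' := IsSepClosed.lift
  let _ : Algebra M M' := j.toRingHom.toAlgebra
  have : IsScalarTower F M M' := IsScalarTower.of_algebraMap_eq fun c => (j.commutes c).symm
  refine ⟨j.toRingHom, j.commutes, fun τ e => ?_⟩
  let t : M' ≃ₐ[F] M' := AlgEquiv.ofRingEquiv (f := τ) e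
  refine ⟨t.restrictNormal M, fun n => ?_⟩
  induction n with
  | zero => exact fun _ => rfl
  | succ n ih =>
    intro w
    rw [Function.iterate_succ_apply', ih, pow_succ', AlgEquiv.mul_apply]
    exact (t.restrictNormal_commutes M _).symm

/-- A cyclotomic extension of degree dividing `l` embeds. -/
theorem Pr.emb (h : Pr l N M) {R W : Type} [Field R] [Field W] [Algebra R W] [FiniteDimensional R W]
    [IsGalois R W] (d : Module.finrank R W ∣ l) {ω : W} (g : ∀ w, ∃ p : R[X], w = aeval ω p)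
    (m : ω ^ N = 1) (φ : R →+* M) : ∃ ψ : W →+* M, ψ.comp (algebraMap R W) = φ := by
  let Ω := SeparableClosure M
  obtain ⟨e, e1, e2⟩ := ex_res (M := W) ((algebraMap M Ω).comp φ)
  obtain ⟨a, ha⟩ := (InfiniteGalois.mem_range_algebraMap_iff_fixed (k := M) (e ω)).2 fun τ => by
    obtain ⟨n, n1, n2⟩ := h Ω (algebraMap M Ω) τ.toRingEquiv τ.commutes
    obtain ⟨t, k1⟩ := e2 τ.toRingEquiv fun c => τ.commutes (φ c)
    have k2 : Function.IsPeriodicPt τ.toRingEquiv l (e ω) := (k1 l ω).trans (by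
      obtain ⟨c, rfl⟩ := d
      rw [pow_mul, ← IsGalois.card_aut_eq_finrank, pow_card_eq_one', one_pow, AlgEquiv.one_apply])
    have k3 := Function.IsPeriodicPt.gcd (n2 (e ω) (by rw [← map_pow, m, map_one])) k2
    rwa [n1.gcd_eq_one] at k3
  obtain ⟨ψ, hψ⟩ := P011LQ.descend e (algebraMap M Ω) (algebraMap M Ω).injective fun w => by
    obtain ⟨p, rfl⟩ := g w
    refine ⟨eval₂ φ a p, ?_⟩
    rw [hom_eval₂, ha, aeval_def, hom_eval₂, RingHom.ext (f := e.comp _) e1]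
  exact ⟨ψ, RingHom.ext fun c => (algebraMap M Ω).injective ((hψ _).trans (e1 c))⟩

variable {k K : Type} [Field k] [Field K] [Algebra k K]

variable (l) in
/-- The groups of the tower. -/
def Hn (L : IntermediateField k K) (i : ℕ) : Subgroup Gal(K/k) where
  carrier := {σ | σ ∈ L.fixingSubgroup ∧ ∃ n, n.Coprime l ∧ σ ^ n ∈ Zn k K i.factorial}
  one_mem' := ⟨one_mem _, 1, l.coprime_one_left, by simp⟩
  inv_mem' := fun ⟨a, n, b, c⟩ => ⟨Subgroup.inv_mem _ a, n, b, by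
    rw [inv_pow]; exact Subgroup.inv_mem _ c⟩
  mul_mem' := fun {σ τ} ⟨a, n, b, c⟩ ⟨a', n', b', c'⟩ => ⟨mul_mem a a', n * n', b.mul_left b', by
    have e : Commute (σ : _ ⧸ Zn k K i.factorial) τ := QuotientGroup.eq.2 (mem_Zn.2 fun ζ m => by
      rw [AlgEquiv.mul_apply, AlgEquiv.mul_apply τ, Zn_comm i.factorial_ne_zero τ σ m,
        ← AlgEquiv.mul_apply σ, ← AlgEquiv.mul_apply, inv_mul_cancel, AlgEquiv.one_apply])
    rw [← QuotientGroup.eq_one_iff, QuotientGroup.mk_pow] at c c' ⊢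
    rw [QuotientGroup.mk_mul, e.mul_pow, pow_mul, c, mul_comm n, pow_mul, c', one_pow, one_pow,
      one_mul]⟩

variable {L : IntermediateField k K} {i : ℕ}

theorem Hn_ge : L.fixingSubgroup ⊓ Zn k K i.factorial ≤ Hn l L i := fun _ m =>
  ⟨m.1, 1, l.coprime_one_left, by rw [pow_one]; exact m.2⟩

theorem Hn_zero : Hn l L 0 = L.fixingSubgroup := le_antisymm (fun _ m => m.1) fun σ m =>
  Hn_ge ⟨m, mem_Zn.2 fun ζ e => by rw [Nat.factorial_zero, pow_one] at e; rw [e, map_one]⟩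

theorem Hn_succ : Hn l L (i + 1) ≤ Hn l L i := fun _ ⟨a, n, b, c⟩ => ⟨a, n, b, mem_Zn.2 fun ζ e =>
  mem_Zn.1 c ζ (by rw [Nat.factorial_succ, mul_comm, pow_mul, e, one_pow])⟩

variable [IsGalois k K] [FiniteDimensional k L]

theorem Hn_open : IsOpen (Hn l L i : Set Gal(K/k)) :=
  Subgroup.isOpen_mono Hn_ge (L.fixingSubgroup_isOpen.inter (Zn_open i.factorial_ne_zero))

theorem Hn_cl : IsClosed (Hn l L i : Set Gal(K/k)) := Subgroup.isClosed_of_isOpen _ Hn_open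

theorem Hn_fin : FiniteDimensional k (fixedField (Hn l L i)) :=
  (InfiniteGalois.isOpen_iff_finite _).1 ((fix_ff (H := Hn l L i) Hn_cl).symm ▸ Hn_open)

theorem Hn_up (hl : l.Prime) : Up {l} (fixedField (Hn l L i)) (fixedField (Hn l L (i + 1))) := by
  refine up_of hl Hn_cl Hn_cl Hn_succ (fun τ ⟨a, n, b, c⟩ σ s => ⟨mul_mem (mul_mem s.1 a)
    (Subgroup.inv_mem _ s.1), n, b, by
      rw [conj_pow]; exact Subgroup.Normal.conj_mem inferInstance _ c σ⟩)
    (inf_eq_right.2 (Hn_succ (l := l) (L := L) (i := i)) ▸ open_idx Hn_open) fun σ s => ?_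
  have i0 := open_idx (H := ⊤) (Zn_open (k := k) (K := K) (i + 1).factorial_ne_zero)
  rw [top_inf_eq, Subgroup.relIndex_top_right] at i0
  obtain ⟨e, n, n1, n2⟩ := Nat.exists_eq_pow_mul_and_not_dvd i0 l hl.ne_one
  exact ⟨e, pow_mem s.1 _, n, (hl.coprime_iff_not_dvd.2 n1).symm, by
    rw [← pow_mul, ← n2]; exact Subgroup.pow_index_mem _ σ⟩

theorem Hn_pr [IsSepClosed K] : Pr l i.factorial (fixedField (Hn l L i)) := by
  intro Ω _ _ χ τ e
  obtain ⟨j, -, e2⟩ := ex_res (M := K) χ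
  obtain ⟨t, k1⟩ := e2 τ e
  obtain ⟨-, n, n1, n2⟩ : AlgEquiv.restrictScalarsHom k t ∈ Hn l L i :=
    (fix_ff Hn_cl).le (fx_iff.1 fun x m => t.commutes ⟨x, m⟩)
  refine ⟨n, n1, fun ζ m => ?_⟩
  obtain ⟨ξ, rfl⟩ := root_mem j i.factorial_ne_zero m
  rw [← map_pow] at n2
  exact (k1 n ξ).trans (congrArg j (mem_Zn.1 n2 ξ (j.injective (by rw [map_pow, m, map_one]))))

end Vale.Agent.P011UHT
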